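import Vale.Agent.Lib.P226.Final4

open Vale.Agent.Lib.P226 in
/-- The Gaussian propeller conjecture: for all `d` and `k`, every measurable partition
`(A₁, …, A_k)` of `ℝ^d` (cells may be empty) satisfies `∑ᵢ |∫_{Aᵢ} x dγ_d(x)|² ≤ 9 / (8π)`. -/
theorem Vale.Agent.Results.P226.APropeller.result (d k : ℕ)
    (A : Fin k → Set (EuclideanSpace ℝ (Fin d))) (hA : IsMeasPartition A) :
    momentEnergy A ≤ 9 / (8 * Real.pi) :=
  propeller_bound k A hA
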