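import Vale.Agent.Lib.P226.Main

open Vale.Agent.Lib.P226 in
/-- The Gaussian propeller conjecture for all dimensions and all numbers of cells, deduced from two
published theorems taken as explicit hypotheses: Ehrhard's inequality for closed convex sets
(Ehrhard 1983) and the bound `9/(8π)` for partitions into four cells (Heilman, Jagannath and Naor
2013, together with Khot and Naor 2009). -/
theorem Vale.Agent.Results.P226.APropellerConjecture.result
    (hEhrhard : ∀ d : ℕ, EhrhardOn (EuclideanSpace ℝ (Fin d)))
    (hFourCells : ∀ (d : ℕ) (A : Fin 4 → Set (EuclideanSpace ℝ (Fin d))),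
      IsMeasPartition A → momentEnergy A ≤ 9 / (8 * Real.pi))
    (d k : ℕ) (A : Fin k → Set (EuclideanSpace ℝ (Fin d))) (hA : IsMeasPartition A) :
    momentEnergy A ≤ 9 / (8 * Real.pi) :=
  bound_all (hFourCells d) k A hA
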