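import Vale.Agent.Lib.P226.Main

open Vale.Agent.Lib.P226 in
/-- The Gaussian propeller bound for all numbers of cells in a given dimension follows from the
same bound for partitions into four cells of that dimension. The case of at most four cells in
every dimension is the known theorem of Heilman, Jagannath and Naor (2013) together with Khot and
Naor (2009). -/
theorem Vale.Agent.Results.P226.APropellerFourCells.result (d : ℕ)
    (hFourCells : ∀ A : Fin 4 → Set (EuclideanSpace ℝ (Fin d)),
      IsMeasPartition A → momentEnergy A ≤ 9 / (8 * Real.pi))
    (k : ℕ) (A : Fin k → Set (EuclideanSpace ℝ (Fin d))) (hA : IsMeasPartition A) :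
    momentEnergy A ≤ 9 / (8 * Real.pi) :=
  bound_all hFourCells k A hA
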