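import Vale.Agent.Lib.P226.FiniteReduction

open Vale.Agent.Lib.P226 in
/-- Every measurable partition of `ℝ^d` with `F ≥ 9/(8π)` can be replaced by a measurable
partition of `ℝ^d` into `2^28` cells (some possibly empty) with at least the same value of `F`. -/
theorem Vale.Agent.Results.P226.FiniteCellReduction.result (d k : ℕ)
    (A : Fin k → Set (EuclideanSpace ℝ (Fin d))) (hA : IsMeasPartition A)
    (hF : 9 / (8 * Real.pi) ≤ momentEnergy A) :
    ∃ B : Fin (2 ^ 28) → Set (EuclideanSpace ℝ (Fin d)),
      IsMeasPartition B ∧ momentEnergy A ≤ momentEnergy B := by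
  have hk : Nonempty (Fin k) := by
    have h0 : (0 : EuclideanSpace ℝ (Fin d)) ∈ ⋃ i, A i := by
      rw [hA.2.2]
      exact Set.mem_univ _
    obtain ⟨i, -⟩ := Set.mem_iUnion.mp h0
    exact ⟨i⟩
  exact exists_partition_ge le_rfl hA hF
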