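import Vale.Agent.Lib.P226.Robust

open Vale.Agent.Lib.P226 in
/-- Robust three cell theorem.  For every partition of `ℝ^d` into `k` cells and three distinct cells
`a, b, c`: (1) if the cells other than `a, b, c` have total moment energy at most `10⁻⁴⁶`, then
`F ≤ 9/(8π)`; (2) if the cells other than `a, b, c` have total Gaussian measure at most `10⁻³²`, then
`F ≤ 9/(8π)`; (3) in all cases `F ≤ 9/(8π) + ∑_{rest} |z_j|²`. -/
theorem Vale.Agent.Results.P226.RobustThreeCell.result (d k : ℕ)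
    (A : Fin k → Set (EuclideanSpace ℝ (Fin d))) (hA : IsMeasPartition A)
    (a b c : Fin k) (hab : a ≠ b) (hac : a ≠ c) (hbc : b ≠ c) :
    (∑ j ∈ Finset.univ \ {a, b, c}, ‖gaussMoment (A j)‖ ^ 2 ≤ 1e-46 →
      momentEnergy A ≤ 9 / (8 * Real.pi)) ∧
    (∑ j ∈ Finset.univ \ {a, b, c}, (ProbabilityTheory.stdGaussian _).real (A j) ≤ 1e-32 →
      momentEnergy A ≤ 9 / (8 * Real.pi)) ∧
    momentEnergy A ≤ 9 / (8 * Real.pi) + ∑ j ∈ Finset.univ \ {a, b, c}, ‖gaussMoment (A j)‖ ^ 2 :=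
  ⟨fun h => robust_three_cell hA hab hac hbc h, fun h => robust_three_cell_measure hA hab hac hbc h,
    energy_le_add_rest hA hab hac hbc⟩
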