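import Vale.Agent.Lib.P226.Blocks

open Vale.Agent.Lib.P226 in
/-- Partitions whose cells can be grouped into groups of at most three cells with vanishing total
first moment obey the propeller inequality (sharp); see `GroupBound` for the precise form, which
also contains a stability inequality for arbitrary groups of at most two cells.  Parts:
(1) `GroupBound` with `n = 3`, `M = 9/(8π)`; (2) `GroupBound` with `n = 2`, `M = 1/π`;
(3) for all `n`, `M`: a bound `M` on all `n`-cell partitions of the same space gives `GroupBound`;
(4) orbits of three cells under a linear isometry `ρ` with `ρ² + ρ + 1 = 0`: `F ≤ 9/(8π)`;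
(5) antipodal pairs of cells: `F ≤ 1/π`. -/
theorem Vale.Agent.Results.P226.ZeroMomentGroups.result (d : ℕ) :
    GroupBound (EuclideanSpace ℝ (Fin d)) 3 (9 / (8 * Real.pi)) ∧
    GroupBound (EuclideanSpace ℝ (Fin d)) 2 (1 / Real.pi) ∧
    (∀ (n : ℕ) (M : ℝ), 0 < n →
      (∀ B : Fin n → Set (EuclideanSpace ℝ (Fin d)), IsMeasPartition B → momentEnergy B ≤ M) →
      GroupBound (EuclideanSpace ℝ (Fin d)) n M) ∧
    (∀ ρ : EuclideanSpace ℝ (Fin d) ≃ₗᵢ[ℝ] EuclideanSpace ℝ (Fin d),
      (∀ v, ρ (ρ v) + ρ v + v = 0) → OrbitBound ρ (9 / (8 * Real.pi))) ∧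
    (∀ (J : Type) [Fintype J] [DecidableEq J]
        (B : J × Fin 2 → Set (EuclideanSpace ℝ (Fin d))), IsMeasPartition B →
        (∀ j, B (j, 1) = (fun x => -x) '' B (j, 0)) →
        momentEnergy B ≤ 1 / Real.pi) := by
  have h3pos : (0:ℝ) ≤ 9 / (8 * Real.pi) := by positivity
  have h2pos : (0:ℝ) ≤ 1 / Real.pi := by positivity
  refine ⟨?_, ?_, ?_, ?_, ?_⟩
  · exact groupBound_of_Phi (n := 3) Phi_three_le h3pos
  · exact groupBound_of_Phi (n := 2) Phi_two_le h2pos
  · intro n M hn hM
    have : NeZero n := ⟨hn.ne'⟩
    have hΦ := Phi_le_of_partition_bound hM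
    have hM0 : 0 ≤ M := by
      refine le_trans ?_ (hM _ (isMeasPartition_cell (fun _ : Fin n => (0 : EuclideanSpace ℝ (Fin d)))))
      exact Finset.sum_nonneg (fun _ _ => by positivity)
    exact groupBound_of_Phi (E := EuclideanSpace ℝ (Fin d)) (n := n) (M := M) hΦ hM0
  · intro ρ hρ J _ _ B hB hinv
    refine energy_le_of_groups (n := 3) Phi_three_le h3pos hB Prod.fst ?_ ?_
    · intro j
      calc (Finset.univ.filter (fun p : J × Fin 3 => p.1 = j)).card
          ≤ (Finset.univ : Finset (Fin 3)).card := by
            refine Finset.card_le_card_of_injOn Prod.snd (fun _ _ => Finset.mem_univ _) ?_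
            rintro ⟨a, b⟩ h1 ⟨c, e⟩ h2 h3
            simp only [Finset.coe_filter, Finset.mem_univ, true_and, Set.mem_ofPred_eq] at h1 h2
            simp only at h3
            rw [Prod.mk.injEq]
            exact ⟨h1.trans h2.symm, h3⟩
        _ = 3 := by simp
    · intro j
      rw [Finset.sum_filter, Fintype.sum_prod_type, Finset.sum_eq_single j]
      · simp only [if_true, Fin.sum_univ_three]
        have h1 : gaussMoment (B (j, 1)) = ρ (gaussMoment (B (j, 0))) := by
          rw [(hinv j).1, gaussMoment_image]
        have h2 : gaussMoment (B (j, 2)) = ρ (ρ (gaussMoment (B (j, 0)))) := by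
          rw [(hinv j).2, gaussMoment_image, h1]
        rw [h1, h2]
        have := hρ (gaussMoment (B (j, 0)))
        rw [← this]
        abel
      · intro j' _ hj'
        simp [hj']
      · intro h
        exact absurd (Finset.mem_univ _) h
  · intro J _ _ B hB hinv
    refine energy_le_of_groups (n := 2) Phi_two_le h2pos hB Prod.fst ?_ ?_
    · intro j
      calc (Finset.univ.filter (fun p : J × Fin 2 => p.1 = j)).card
          ≤ (Finset.univ : Finset (Fin 2)).card := by
            refine Finset.card_le_card_of_injOn Prod.snd (fun _ _ => Finset.mem_univ _) ?_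
            rintro ⟨a, b⟩ h1 ⟨c, e⟩ h2 h3
            simp only [Finset.coe_filter, Finset.mem_univ, true_and, Set.mem_ofPred_eq] at h1 h2
            simp only at h3
            rw [Prod.mk.injEq]
            exact ⟨h1.trans h2.symm, h3⟩
        _ = 2 := by simp
    · intro j
      rw [Finset.sum_filter, Fintype.sum_prod_type, Finset.sum_eq_single j]
      · simp only [if_true, Fin.sum_univ_two]
        have h1 : B (j, 1) = (LinearIsometryEquiv.neg ℝ (E := EuclideanSpace ℝ (Fin d))) '' B (j, 0) := by
          rw [hinv j]
          rfl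
        rw [h1, gaussMoment_image]
        simp
      · intro j' _ hj'
        simp [hj']
      · intro h
        exact absurd (Finset.mem_univ _) h
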